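import Vale.Agent.P050.H743.Clo.Cone

/-!
P050 [CLO]: cones with long legs.
-/

namespace Vale.Agent.P050.H743.Clo

open Finset Vale.Agent.P050.Lev Vale.Agent.P050.Tmpl Vale.Agent.P050.H177 Vale.Agent.P050.H687

/-- A new vertex joined to all vertices of colour `false` by paths with `k` inner vertices. -/
def legG {VG : Type} (G : SimpleGraph VG) (t : VG → Bool) (k : ℕ) :
    SimpleGraph (Unit ⊕ (({p // t p = false} × Fin k) ⊕ VG)) where
  Adj
    | Sum.inl _, Sum.inl _ => False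
    | Sum.inl _, Sum.inr (Sum.inl x) => (x.2 : ℕ) = 0
    | Sum.inl _, Sum.inr (Sum.inr q) => k = 0 ∧ t q = false
    | Sum.inr (Sum.inl x), Sum.inl _ => (x.2 : ℕ) = 0
    | Sum.inr (Sum.inr q), Sum.inl _ => k = 0 ∧ t q = false
    | Sum.inr (Sum.inl x), Sum.inr (Sum.inl y) =>
      x.1 = y.1 ∧ ((x.2 : ℕ) + 1 = y.2 ∨ (y.2 : ℕ) + 1 = x.2)
    | Sum.inr (Sum.inl x), Sum.inr (Sum.inr q) => x.1.1 = q ∧ (x.2 : ℕ) + 1 = k
    | Sum.inr (Sum.inr q), Sum.inr (Sum.inl x) => x.1.1 = q ∧ (x.2 : ℕ) + 1 = k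
    | Sum.inr (Sum.inr p), Sum.inr (Sum.inr q) => G.Adj p q
  symm := ⟨by
    rintro (u | x | p) (v | y | q) h
    · exact h
    · exact h
    · exact h
    · exact h
    · exact ⟨h.1.symm, h.2.symm⟩
    · exact h
    · exact h
    · exact h
    · exact h.symm⟩
  loopless := ⟨by
    rintro (u | x | p) h
    · exact h
    · rcases h.2 with h | h <;> omega
    · exact G.loopless.irrefl _ h⟩

/-- the 2-colouring -/
def legS {VG : Type} (t : VG → Bool) (k : ℕ) :
    Unit ⊕ (({p // t p = false} × Fin k) ⊕ VG) → Bool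
  | Sum.inl _ => decide (k % 2 = 0)
  | Sum.inr (Sum.inl x) => decide (((x.2 : ℕ) + k) % 2 = 1)
  | Sum.inr (Sum.inr q) => t q

theorem pathT_of_lt {k : ℕ} {i : ℕ} (hi : i < k + 2) : false = pathT (k + 1) ⟨i, by omega⟩ := by
  unfold pathT
  symm
  rw [decide_eq_false_iff_not]
  simp only
  omega

theorem pathT_last (k : ℕ) : true = pathT (k + 1) ⟨k + 2, by omega⟩ := by
  unfold pathT
  symm
  rw [decide_eq_true_iff]

theorem ne_zero' {k i : ℕ} (hi : i + 1 < k + 3) :
    (⟨i + 1, hi⟩ : Fin (k + 3)) ∉ ({0} : Finset (Fin (k + 3))) := by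
  rw [mem_singleton]
  intro h
  have := congrArg Fin.val h
  simp at this

/-- the map to the substitution -/
def legMap {VG : Type} (t : VG → Bool) (k : ℕ) :
    Unit ⊕ (({p // t p = false} × Fin k) ⊕ VG) → RV t (pathT (k + 1)) {0}
  | Sum.inl _ => Sum.inl ⟨0, mem_singleton_self _⟩
  | Sum.inr (Sum.inl x) => Sum.inr ⟨(x.1.1, ⟨(x.2 : ℕ) + 1, by omega⟩), ne_zero' _,
      x.1.2.trans (pathT_of_lt (by omega))⟩
  | Sum.inr (Sum.inr q) => if h : t q = false
    then Sum.inr ⟨(q, ⟨k + 1, by omega⟩), ne_zero' _, h.trans (pathT_of_lt (by omega))⟩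
    else Sum.inr ⟨(q, ⟨k + 2, by omega⟩), ne_zero' _,
      ((Bool.not_eq_false _).mp h).trans (pathT_last k)⟩

theorem legMap_bij {VG : Type} (t : VG → Bool) (k : ℕ) : Function.Bijective (legMap t k) := by
  constructor
  · rintro (u | x | p) (v | y | q) h
    · rfl
    · simp [legMap] at h
    · simp only [legMap] at h
      split_ifs at h
    · simp [legMap] at h
    · simp only [legMap, Sum.inr.injEq, Subtype.mk.injEq, Prod.mk.injEq, Fin.mk.injEq] at h
      obtain ⟨h1, h2⟩ := h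
      have e1 : x.1 = y.1 := Subtype.ext h1
      have e2 : x.2 = y.2 := Fin.ext (by omega)
      rw [Prod.ext e1 e2]
    · simp only [legMap] at h
      have := x.2.2
      split_ifs at h <;>
        · simp only [Sum.inr.injEq, Subtype.mk.injEq, Prod.mk.injEq, Fin.mk.injEq] at h
          omega
    · simp only [legMap] at h
      split_ifs at h
    · simp only [legMap] at h
      have := y.2.2
      split_ifs at h <;>
        · simp only [Sum.inr.injEq, Subtype.mk.injEq, Prod.mk.injEq, Fin.mk.injEq] at h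
          omega
    · simp only [legMap] at h
      split_ifs at h <;>
        · simp only [Sum.inr.injEq, Subtype.mk.injEq, Prod.mk.injEq] at h
          rw [h.1]
  · rintro (u | ⟨⟨p, ⟨i, hi⟩⟩, h1, h2⟩)
    · refine ⟨Sum.inl (), ?_⟩
      obtain ⟨u, hu⟩ := u
      rw [mem_singleton] at hu
      subst hu
      rfl
    · have h1' : i ≠ 0 := fun h => h1 (mem_singleton.2 (Fin.ext h))
      simp only at h2
      by_cases hik : i = k + 2
      · subst hik
        have h : ¬ t p = false := by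
          rw [h2, ← pathT_last]
          exact Bool.noConfusion
        refine ⟨Sum.inr (Sum.inr p), ?_⟩
        simp only [legMap]
        rw [dif_neg h]
      · have h : t p = false := by
          rw [h2]
          exact (pathT_of_lt (k := k) (i := i) (by omega)).symm
        by_cases hik' : i = k + 1
        · subst hik'
          refine ⟨Sum.inr (Sum.inr p), ?_⟩
          simp only [legMap]
          rw [dif_pos h]
        · refine ⟨Sum.inr (Sum.inl (⟨p, h⟩, ⟨i - 1, by omega⟩)), ?_⟩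
          simp only [legMap, Sum.inr.injEq, Subtype.mk.injEq, Prod.mk.injEq, true_and,
            Fin.mk.injEq]
          omega

theorem leg_adj {VG : Type} {G : SimpleGraph VG} {t : VG → Bool}
    (hp : ∀ p q, G.Adj p q → t p ≠ t q) (k : ℕ) (a b) :
    (legG G t k).Adj a b ↔
      (relSub G t (pathG (k + 3)) (pathT (k + 1)) {0}).Adj (legMap t k a) (legMap t k b) := by
  have n1 : ∀ p q, t p = false → t q = false → ¬ G.Adj p q := fun p q h1 h2 h =>
    hp p q h (h1.trans h2.symm)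
  have n2 : ∀ p q, ¬ t p = false → ¬ t q = false → ¬ G.Adj p q := fun p q h1 h2 h =>
    hp p q h (((Bool.not_eq_false _).mp h1).trans ((Bool.not_eq_false _).mp h2).symm)
  rcases a with u | x | p <;> rcases b with v | y | q
  · show False ↔ (0 + 1 = 0 ∨ 0 + 1 = 0)
    simp
  · show (y.2 : ℕ) = 0 ↔ (0 + 1 = (y.2 : ℕ) + 1 ∨ (y.2 : ℕ) + 1 + 1 = 0)
    omega
  · by_cases h : t q = false
    · simp only [legMap, dif_pos h]
      show (k = 0 ∧ t q = false) ↔ (0 + 1 = k + 1 ∨ k + 1 + 1 = 0)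
      constructor
      · rintro ⟨h1, _⟩
        omega
      · intro h1
        exact ⟨by omega, h⟩
    · simp only [legMap, dif_neg h]
      show (k = 0 ∧ t q = false) ↔ (0 + 1 = k + 2 ∨ k + 2 + 1 = 0)
      constructor
      · rintro ⟨_, h1⟩
        exact absurd h1 h
      · intro h1
        omega
  · show (x.2 : ℕ) = 0 ↔ ((x.2 : ℕ) + 1 + 1 = 0 ∨ 0 + 1 = (x.2 : ℕ) + 1)
    omega
  · show (x.1 = y.1 ∧ ((x.2 : ℕ) + 1 = y.2 ∨ (y.2 : ℕ) + 1 = x.2)) ↔
      ((x.1.1 = y.1.1 ∨ G.Adj x.1.1 y.1.1) ∧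
        ((x.2 : ℕ) + 1 + 1 = (y.2 : ℕ) + 1 ∨ (y.2 : ℕ) + 1 + 1 = (x.2 : ℕ) + 1))
    constructor
    · rintro ⟨h1, h2⟩
      exact ⟨Or.inl (congrArg Subtype.val h1), by omega⟩
    · rintro ⟨h1 | h1, h2⟩
      · exact ⟨Subtype.ext h1, by omega⟩
      · exact absurd h1 (n1 _ _ x.1.2 y.1.2)
  · have hx := x.2.2
    by_cases h : t q = false
    · simp only [legMap, dif_pos h]
      show (x.1.1 = q ∧ (x.2 : ℕ) + 1 = k) ↔ ((x.1.1 = q ∨ G.Adj x.1.1 q) ∧
        ((x.2 : ℕ) + 1 + 1 = k + 1 ∨ k + 1 + 1 = (x.2 : ℕ) + 1))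
      constructor
      · rintro ⟨h1, h2⟩
        exact ⟨Or.inl h1, by omega⟩
      · rintro ⟨h1 | h1, h2⟩
        · exact ⟨h1, by omega⟩
        · exact absurd h1 (n1 _ _ x.1.2 h)
    · simp only [legMap, dif_neg h]
      show (x.1.1 = q ∧ (x.2 : ℕ) + 1 = k) ↔ ((x.1.1 = q ∨ G.Adj x.1.1 q) ∧
        ((x.2 : ℕ) + 1 + 1 = k + 2 ∨ k + 2 + 1 = (x.2 : ℕ) + 1))
      constructor
      · rintro ⟨h1, _⟩
        exact absurd (h1 ▸ x.1.2) h
      · rintro ⟨_, h2⟩
        omega
  · by_cases h : t p = false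
    · simp only [legMap, dif_pos h]
      show (k = 0 ∧ t p = false) ↔ (k + 1 + 1 = 0 ∨ 0 + 1 = k + 1)
      constructor
      · rintro ⟨h1, _⟩
        omega
      · intro h1
        exact ⟨by omega, h⟩
    · simp only [legMap, dif_neg h]
      show (k = 0 ∧ t p = false) ↔ (k + 2 + 1 = 0 ∨ 0 + 1 = k + 2)
      constructor
      · rintro ⟨_, h1⟩
        exact absurd h1 h
      · intro h1
        omega
  · have hy := y.2.2
    by_cases h : t p = false
    · simp only [legMap, dif_pos h]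
      show (y.1.1 = p ∧ (y.2 : ℕ) + 1 = k) ↔ ((p = y.1.1 ∨ G.Adj p y.1.1) ∧
        (k + 1 + 1 = (y.2 : ℕ) + 1 ∨ (y.2 : ℕ) + 1 + 1 = k + 1))
      constructor
      · rintro ⟨h1, h2⟩
        exact ⟨Or.inl h1.symm, by omega⟩
      · rintro ⟨h1 | h1, h2⟩
        · exact ⟨h1.symm, by omega⟩
        · exact absurd h1 (n1 _ _ h y.1.2)
    · simp only [legMap, dif_neg h]
      show (y.1.1 = p ∧ (y.2 : ℕ) + 1 = k) ↔ ((p = y.1.1 ∨ G.Adj p y.1.1) ∧
        (k + 2 + 1 = (y.2 : ℕ) + 1 ∨ (y.2 : ℕ) + 1 + 1 = k + 2))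
      constructor
      · rintro ⟨h1, _⟩
        exact absurd (h1 ▸ y.1.2) h
      · rintro ⟨_, h2⟩
        omega
  · by_cases h : t p = false <;> by_cases h' : t q = false
    · simp only [legMap, dif_pos h, dif_pos h']
      show G.Adj p q ↔ ((p = q ∨ G.Adj p q) ∧ (k + 1 + 1 = k + 1 ∨ k + 1 + 1 = k + 1))
      constructor
      · intro h1
        exact absurd h1 (n1 _ _ h h')
      · rintro ⟨_, h2⟩
        omega
    · simp only [legMap, dif_pos h, dif_neg h']
      show G.Adj p q ↔ ((p = q ∨ G.Adj p q) ∧ (k + 1 + 1 = k + 2 ∨ k + 2 + 1 = k + 1))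
      constructor
      · intro h1
        exact ⟨Or.inr h1, by omega⟩
      · rintro ⟨h1 | h1, _⟩
        · exact absurd (h1 ▸ h) h'
        · exact h1
    · simp only [legMap, dif_neg h, dif_pos h']
      show G.Adj p q ↔ ((p = q ∨ G.Adj p q) ∧ (k + 2 + 1 = k + 1 ∨ k + 1 + 1 = k + 2))
      constructor
      · intro h1
        exact ⟨Or.inr h1, by omega⟩
      · rintro ⟨h1 | h1, _⟩
        · exact absurd (h1 ▸ h') h
        · exact h1
    · simp only [legMap, dif_neg h, dif_neg h']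
      show G.Adj p q ↔ ((p = q ∨ G.Adj p q) ∧ (k + 2 + 1 = k + 2 ∨ k + 2 + 1 = k + 2))
      constructor
      · intro h1
        exact absurd h1 (n2 _ _ h h')
      · rintro ⟨_, h2⟩
        omega

/-- the cone with legs of length `k + 1` -/
theorem legs {VG : Type} [Fintype VG] [DecidableEq VG] {G : SimpleGraph VG} {t : VG → Bool}
    (hne : Nonempty VG) (hG : GSid G t) (hi : ∀ p, ∃ q, G.Adj p q) (k : ℕ) :
    GSid (legG G t k) (legS t k) := by
  refine gsid_of_bij (legMap t k) (legMap_bij t k) (fun a b => leg_adj hG.1 k a b) ?_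
    (path_sub hne hG hi (k + 1))
  rintro (u | x | p)
  · show decide (k % 2 = 0) = decide ((0 + (k + 1)) % 2 = 1)
    rw [decide_eq_decide]
    omega
  · show decide (((x.2 : ℕ) + k) % 2 = 1) = decide (((x.2 : ℕ) + 1 + (k + 1)) % 2 = 1)
    rw [decide_eq_decide]
    omega
  · by_cases h : t p = false
    · simp only [legMap, dif_pos h]
      show t p = decide ((k + 1 + (k + 1)) % 2 = 1)
      rw [h]
      symm
      rw [decide_eq_false_iff_not]
      omega
    · simp only [legMap, dif_neg h]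
      show t p = decide ((k + 2 + (k + 1)) % 2 = 1)
      rw [(Bool.not_eq_false _).mp h]
      symm
      rw [decide_eq_true_iff]
      omega

end Vale.Agent.P050.H743.Clo
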