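import Vale.Agent.P050.H687.Main

/-!
P050 [CLO]: cones.
-/

namespace Vale.Agent.P050.H743.Clo

open Finset Vale.Agent.P050.Lev Vale.Agent.P050.Tmpl Vale.Agent.P050.H177 Vale.Agent.P050.H687

/-- isomorphic graphs (text of `Deg.gsid_iso`) -/
theorem gsid_iso {V W : Type} [Fintype V] [DecidableEq V] [Fintype W] [DecidableEq W]
    {G : SimpleGraph V} {H : SimpleGraph W} {s : V → Bool} {t : W → Bool} (φ : V ≃ W)
    (hG : ∀ u v, H.Adj (φ u) (φ v) ↔ G.Adj u v) (hφ : ∀ v, t (φ v) = s v) (h : GSid G s) :
    GSid H t := by
  classical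
  obtain ⟨h1, _, h2⟩ := h
  have hs : ∀ u v, H.Adj u v → t u ≠ t v := by
    intro u v huv
    obtain ⟨a, rfl⟩ := φ.surjective u
    obtain ⟨b, rfl⟩ := φ.surjective v
    rw [hφ, hφ]
    exact h1 a b ((hG a b).1 huv)
  have e : sideEdges H t = (sideEdges G s).map (φ.prodCongr φ).toEmbedding := by
    ext ⟨u, v⟩
    obtain ⟨a, rfl⟩ := φ.surjective u
    obtain ⟨b, rfl⟩ := φ.surjective v
    rw [Finset.mem_map_equiv]
    unfold sideEdges
    rw [Finset.mem_filter, Finset.mem_filter]
    simp only [mem_univ, true_and, Equiv.prodCongr_symm, Equiv.prodCongr_apply, Prod.map,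
      Equiv.symm_apply_apply, hφ, hG]
  refine ⟨hs, ?_, ?_⟩
  · intro x hx
    unfold sideEdges at hx
    exact (Finset.mem_filter.1 hx).2.2
  · intro U _ m W m0 m1 W0
    have h3 := h2 U m W m0 m1 W0
    rw [e, Finset.card_map]
    refine h3.trans (le_of_eq ?_)
    refine Fintype.sum_equiv (φ.arrowCongr (Equiv.refl U)) _ _ fun z => ?_
    rw [Finset.prod_map]
    congr 1
    · rw [← Equiv.prod_comp φ]
      refine Finset.prod_congr rfl fun v _ => ?_
      rw [hφ]
      simp [Equiv.arrowCongr]
    · refine Finset.prod_congr rfl fun x _ => ?_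
      simp [Equiv.arrowCongr]

/-- the same with a map in the other direction -/
theorem gsid_of_bij {V W : Type} [Fintype V] [DecidableEq V] [Fintype W] [DecidableEq W]
    {G : SimpleGraph V} {H : SimpleGraph W} {s : V → Bool} {t : W → Bool} (ψ : W → V)
    (hψ : Function.Bijective ψ) (hG : ∀ a b, H.Adj a b ↔ G.Adj (ψ a) (ψ b))
    (hs : ∀ a, t a = s (ψ a)) (h : GSid G s) : GSid H t := by
  have hψ' : ∀ u, ψ ((Equiv.ofBijective ψ hψ).symm u) = u := fun u =>
    Equiv.ofBijective_apply_symm_apply ψ hψ u
  refine gsid_iso (Equiv.ofBijective ψ hψ).symm (fun u v => ?_) (fun v => ?_) h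
  · rw [hG, hψ', hψ']
  · rw [hs, hψ']

/-- a graph which is thin over the empty set satisfies the inequality -/
theorem thin_gsid {V : Type} [Fintype V] [DecidableEq V] {H : SimpleGraph V} {s : V → Bool}
    (hs : ∀ u v, H.Adj u v → s u ≠ s v) (hi : ∀ u, ∃ v, H.Adj u v) (hT : Thin H ∅ univ) :
    GSid H s := by
  classical
  refine gsid_of hs hi ?_
  intro U _ m W hb
  rw [H410.fact1 marg V U m W H s univ (fun _ => false) hb.m1]
  have hUne : Nonempty U := by
    by_contra hU
    rw [not_nonempty_iff] at hU
    have := hb.m1 false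
    simp at this
  obtain ⟨u₀⟩ := hUne
  have h1 : ∑ x : V → U, pm s m x = 1 := by
    rw [← H346.thin V U m W H s ∅ ∅ (fun _ => u₀) hb hs (fun v hv => absurd hv (notMem_empty v))
      Thin.empty]
    refine sum_congr rfl fun x _ => ?_
    simp [bw]
  have h2 : ∀ b, pt (fun _ : V => false) univ b = ∅ := by
    intro b
    simp [pt]
  simp only [h2]
  have h3 : ∀ r x : V → U, bw H s W univ ∅ r x = 1 := by
    intro r x
    simp [bw]
  have h4 : ∀ x y : V → U, dw H s W ∅ ∅ x y = 1 := by
    intro x y
    simp [dw]
  simp only [h3, h4, mul_one, h1]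
  rw [← H346.thin V U m W H s ∅ univ (fun _ => u₀) hb hs (fun v hv => absurd hv (notMem_empty v))
      hT]
  refine (sum_congr rfl fun r _ => ?_).le
  rw [bw_empty]

/-- paths are thin -/
theorem thin_path {n : ℕ} {H : SimpleGraph (Fin n)}
    (hH : ∀ i j, H.Adj i j → (i : ℕ) + 1 = j ∨ (j : ℕ) + 1 = i) (R B : Finset (Fin n))
    (hd : ∀ i ∈ R, ∀ j ∈ B, i < j) : Thin H R B := by
  induction B using Finset.induction_on_max with
  | empty => exact Thin.empty
  | insert w B' hlt ih =>
    have hR : ∀ i ∈ R, i < w := fun i hi => hd i hi w (mem_insert_self _ _)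
    have key : ∀ x ∈ R ∪ B', H.Adj w x → (x : ℕ) + 1 = w := by
      intro x hx hwx
      have hxw : x < w := by
        rcases mem_union.1 hx with h | h
        · exact hR x h
        · exact hlt x h
      rcases hH w x hwx with h | h
      · have : (x : ℕ) < w := hxw
        omega
      · exact h
    refine Thin.insert w (ih fun i hi j hj => hd i hi j (mem_insert_of_mem hj))
      (fun h => lt_irrefl _ (hR w h)) (fun h => lt_irrefl _ (hlt w h)) ?_
    intro x hx y hy hwx hwy
    have h1 := key x hx hwx
    have h2 := key y hy hwy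
    exact Fin.ext (by omega)

/-- the path `0, 1, ..., n - 1` -/
def pathG (n : ℕ) : SimpleGraph (Fin n) where
  Adj i j := (i : ℕ) + 1 = j ∨ (j : ℕ) + 1 = i
  symm := ⟨fun _ _ h => h.symm⟩
  loopless := ⟨fun i h => by rcases h with h | h <;> omega⟩

/-- the colouring of the path `0, ..., k + 1` in which `k` has the colour `false` -/
def pathS (k : ℕ) (i : Fin (k + 2)) : Bool := decide (((i : ℕ) + k) % 2 = 1)

theorem path_side (k : ℕ) : ∀ u v, (pathG (k + 2)).Adj u v → pathS k u ≠ pathS k v := by
  intro u v h
  unfold pathS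
  intro he
  rw [decide_eq_decide] at he
  rcases h with h | h <;> omega

theorem path_gsid (k : ℕ) : GSid (pathG (k + 2)) (pathS k) := by
  refine thin_gsid (path_side k) ?_ (thin_path (fun _ _ h => h) ∅ univ
    fun i hi => absurd hi (notMem_empty i))
  intro u
  by_cases hu : (u : ℕ) + 1 < k + 2
  · exact ⟨⟨(u : ℕ) + 1, hu⟩, Or.inl rfl⟩
  · refine ⟨⟨(u : ℕ) - 1, by omega⟩, Or.inr ?_⟩
    show (u : ℕ) - 1 + 1 = u
    omega

/-- the division of the path: the last vertex is the second part -/
def pathT (k : ℕ) (i : Fin (k + 2)) : Bool := decide ((i : ℕ) = k + 1)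

/-- the substitution of the path `r, .., a, e` with common part `r` -/
theorem path_sub {VG : Type} [Fintype VG] [DecidableEq VG] {G : SimpleGraph VG} {t : VG → Bool}
    (hne : Nonempty VG) (hG : GSid G t) (hi : ∀ p, ∃ q, G.Adj p q) (k : ℕ) :
    GSid (relSub G t (pathG (k + 2)) (pathT k) {0}) (subSide (pathS k) t (pathT k) {0}) := by
  refine main VG (Fin (k + 2)) G t (pathG (k + 2)) (pathS k) {0} (pathT k) hne hG (path_gsid k) hi
    ?_ (thin_path (fun _ _ h => h) ∅ {0} fun i hi => absurd hi (notMem_empty i))
    (Or.inl fun b => thin_path (fun _ _ h => h) {0} _ ?_)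
  · intro u
    by_cases hu : (u : ℕ) + 1 < k + 2
    · exact ⟨⟨(u : ℕ) + 1, hu⟩, Or.inl rfl⟩
    · refine ⟨⟨(u : ℕ) - 1, by omega⟩, Or.inr ?_⟩
      show (u : ℕ) - 1 + 1 = u
      omega
  · intro i hi j hj
    rw [mem_singleton] at hi
    subst hi
    simp only [pt, mem_filter, mem_univ, true_and, mem_singleton] at hj
    exact Fin.pos_of_ne_zero hj.1

/-- The cone: a new vertex joined by paths of length two to all vertices of colour `false`. -/
def coneG {VG : Type} (G : SimpleGraph VG) (t : VG → Bool) :
    SimpleGraph (Unit ⊕ ({p // t p = false} ⊕ VG)) where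
  Adj
    | Sum.inl _, Sum.inl _ => False
    | Sum.inl _, Sum.inr (Sum.inl _) => True
    | Sum.inl _, Sum.inr (Sum.inr _) => False
    | Sum.inr (Sum.inl _), Sum.inl _ => True
    | Sum.inr (Sum.inr _), Sum.inl _ => False
    | Sum.inr (Sum.inl _), Sum.inr (Sum.inl _) => False
    | Sum.inr (Sum.inl p), Sum.inr (Sum.inr q) => p.1 = q
    | Sum.inr (Sum.inr q), Sum.inr (Sum.inl p) => p.1 = q
    | Sum.inr (Sum.inr p), Sum.inr (Sum.inr q) => G.Adj p q
  symm := ⟨by
    rintro (u | p | p) (v | q | q) h
    · exact h
    · exact h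
    · exact h
    · exact h
    · exact h
    · exact h
    · exact h
    · exact h
    · exact h.symm⟩
  loopless := ⟨by
    rintro (u | p | p) h
    · exact h
    · exact h
    · exact G.loopless.irrefl _ h⟩

/-- the 2-colouring of the cone -/
def coneS {VG : Type} (t : VG → Bool) : Unit ⊕ ({p // t p = false} ⊕ VG) → Bool
  | Sum.inl _ => false
  | Sum.inr (Sum.inl _) => true
  | Sum.inr (Sum.inr q) => t q

theorem n1 : (1 : Fin 4) ∉ ({0} : Finset (Fin 4)) := by decide
theorem n2 : (2 : Fin 4) ∉ ({0} : Finset (Fin 4)) := by decide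
theorem n3 : (3 : Fin 4) ∉ ({0} : Finset (Fin 4)) := by decide
theorem t1 : false = pathT 2 1 := by decide
theorem t2 : false = pathT 2 2 := by decide
theorem t3 : true = pathT 2 3 := by decide

/-- the map to the substitution -/
def coneMap {VG : Type} (t : VG → Bool) :
    Unit ⊕ ({p // t p = false} ⊕ VG) → RV t (pathT 2) {0}
  | Sum.inl _ => Sum.inl ⟨0, mem_singleton_self _⟩
  | Sum.inr (Sum.inl p) => Sum.inr ⟨(p.1, 1), n1, p.2.trans t1⟩
  | Sum.inr (Sum.inr q) => if h : t q = false
    then Sum.inr ⟨(q, 2), n2, h.trans t2⟩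
    else Sum.inr ⟨(q, 3), n3, ((Bool.not_eq_false _).mp h).trans t3⟩

theorem coneMap_bij {VG : Type} (t : VG → Bool) : Function.Bijective (coneMap t) := by
  constructor
  · rintro (u | p | p) (v | q | q) h
    · rfl
    · simp [coneMap] at h
    · simp only [coneMap] at h
      split_ifs at h
    · simp [coneMap] at h
    · simp only [coneMap, Sum.inr.injEq, Subtype.mk.injEq, Prod.mk.injEq] at h
      rw [Subtype.ext h.1]
    · simp only [coneMap] at h
      split_ifs at h <;>
        · simp only [Sum.inr.injEq, Subtype.mk.injEq, Prod.mk.injEq] at h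
          exact absurd h.2 (by decide)
    · simp only [coneMap] at h
      split_ifs at h
    · simp only [coneMap] at h
      split_ifs at h <;>
        · simp only [Sum.inr.injEq, Subtype.mk.injEq, Prod.mk.injEq] at h
          exact absurd h.2 (by decide)
    · simp only [coneMap] at h
      split_ifs at h <;>
        · simp only [Sum.inr.injEq, Subtype.mk.injEq, Prod.mk.injEq] at h
          rw [h.1]
  · rintro (u | ⟨⟨p, i⟩, h1, h2⟩)
    · refine ⟨Sum.inl (), ?_⟩
      obtain ⟨u, hu⟩ := u
      rw [mem_singleton] at hu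
      subst hu
      rfl
    · simp only [mem_singleton] at h1
      simp only at h2
      fin_cases i
      · exact absurd rfl h1
      · refine ⟨Sum.inr (Sum.inl ⟨p, by rw [h2]; decide⟩), rfl⟩
      · refine ⟨Sum.inr (Sum.inr p), ?_⟩
        have h : t p = false := by rw [h2]; decide
        simp only [coneMap, h, dif_pos]
        rfl
      · refine ⟨Sum.inr (Sum.inr p), ?_⟩
        have h : ¬ t p = false := by rw [h2]; decide
        simp only [coneMap]
        rw [dif_neg h]
        rfl

/-- **[CONE]** -/
theorem cone {VG : Type} [Fintype VG] [DecidableEq VG] {G : SimpleGraph VG} {t : VG → Bool}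
    (hne : Nonempty VG) (hG : GSid G t) (hi : ∀ p, ∃ q, G.Adj p q) :
    GSid (coneG G t) (coneS t) := by
  refine gsid_of_bij (coneMap t) (coneMap_bij t) ?_ ?_ (path_sub hne hG hi 2)
  · have hp := hG.1
    rintro (u | p | p) (v | q | q)
    · simp [coneG, coneMap, relSub, pathG]
    · simp [coneG, coneMap, relSub, pathG]
    · simp only [coneG, coneMap]
      split_ifs <;> simp [relSub, pathG]
    · simp [coneG, coneMap, relSub, pathG]
    · simp [coneG, coneMap, relSub, pathG]
    · simp only [coneG, coneMap]
      split_ifs with h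
      · have := hp p.1 q
        simp only [relSub, pathG]
        simp
        intro h'
        exact absurd (p.2.trans h.symm) (this h')
      · simp only [relSub, pathG]
        simp
        rintro rfl
        exact h p.2
    · simp only [coneG, coneMap]
      split_ifs <;> simp [relSub, pathG]
    · simp only [coneG, coneMap]
      split_ifs with h
      · have := hp q.1 p
        simp only [relSub, pathG]
        simp
        constructor
        · intro h'
          exact Or.inl h'.symm
        · rintro (h' | h')
          · exact h'.symm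
          · exact absurd (q.2.trans h.symm) (this h'.symm)
      · simp only [relSub, pathG]
        simp
        rintro rfl
        exact h q.2
    · simp only [coneG, coneMap]
      have h3 := hp p q
      split_ifs with h h' h'
      · simp only [relSub, pathG]
        simp
        intro h4
        exact absurd (h.trans h'.symm) (h3 h4)
      · simp only [relSub, pathG]
        simp
        rintro rfl
        exact absurd h h'
      · simp only [relSub, pathG]
        simp
        rintro rfl
        exact absurd h' h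
      · simp only [relSub, pathG]
        simp
        intro h4
        rw [Bool.not_eq_false] at h h'
        exact absurd (h.trans h'.symm) (h3 h4)
  · rintro (u | p | p)
    · rfl
    · exact (by decide : true = pathS 2 1)
    · simp only [coneMap, coneS]
      split_ifs with h
      · exact h.trans (by decide : false = pathS 2 2)
      · exact ((Bool.not_eq_false _).mp h).trans (by decide : true = pathS 2 3)

end Vale.Agent.P050.H743.Clo
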