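import Vale.Agent.P050.H687.Spec

/-!
P050 [CLO], case (B): the second part is thin over the rest.
-/

namespace Vale.Agent.P050.H743.Clo

open Finset Vale.Agent.P050.Lev Vale.Agent.P050.Tmpl Vale.Agent.P050.H177 Vale.Agent.P050.H687

section basics

variable {V U : Type}

theorem ed_nonneg (H : SimpleGraph V) (s : V → Bool) {W : U → U → ℝ} (hW : ∀ x y, 0 ≤ W x y)
    (u v : V) (x y : U) : 0 ≤ ed H s W u v x y := by
  unfold ed
  split_ifs
  · exact hW _ _
  · exact zero_le_one

theorem ite_nonneg' {p : Prop} [Decidable p] {a : ℝ} (ha : 0 ≤ a) : 0 ≤ if p then a else 1 := by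
  split_ifs
  · exact ha
  · exact zero_le_one

variable [Fintype V]

theorem pm_nonneg (s : V → Bool) {m : Bool → U → ℝ} (hm : ∀ b x, 0 ≤ m b x) (x : V → U) :
    0 ≤ pm s m x := prod_nonneg fun _ _ => hm _ _

variable [DecidableEq V]

theorem aw_nonneg (H : SimpleGraph V) (s : V → Bool) {W : U → U → ℝ} (hW : ∀ x y, 0 ≤ W x y)
    (K : Finset V) (r : V → U) : 0 ≤ aw H s W K r :=
  prod_nonneg fun _ _ => prod_nonneg fun _ _ => ite_nonneg' (ed_nonneg H s hW _ _ _ _)

theorem bw_nonneg (H : SimpleGraph V) (s : V → Bool) {W : U → U → ℝ} (hW : ∀ x y, 0 ≤ W x y)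
    (K B : Finset V) (r x : V → U) : 0 ≤ bw H s W K B r x :=
  prod_nonneg fun _ _ => prod_nonneg fun _ _ => mul_nonneg
    (mul_nonneg (ite_nonneg' (ed_nonneg H s hW _ _ _ _)) (ite_nonneg' (ed_nonneg H s hW _ _ _ _)))
    (ite_nonneg' (ed_nonneg H s hW _ _ _ _))

theorem dw_nonneg (H : SimpleGraph V) (s : V → Bool) {W : U → U → ℝ} (hW : ∀ x y, 0 ≤ W x y)
    (X Y : Finset V) (x y : V → U) : 0 ≤ dw H s W X Y x y :=
  prod_nonneg fun _ _ => prod_nonneg fun _ _ => mul_nonneg
    (ite_nonneg' (ed_nonneg H s hW _ _ _ _)) (ite_nonneg' (ed_nonneg H s hW _ _ _ _))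

theorem bw_empty (H : SimpleGraph V) (s : V → Bool) (W : U → U → ℝ) (K : Finset V)
    (r x : V → U) : bw H s W ∅ K r x = aw H s W K x := by
  unfold bw aw
  refine prod_congr rfl fun u _ => prod_congr rfl fun v _ => ?_
  simp

theorem bw_union (H : SimpleGraph V) (s : V → Bool) (W : U → U → ℝ) (K : Finset V)
    (τ : V → Bool) (r x y : V → U) :
    bw H s W (K ∪ pt τ K false) (pt τ K true) (fun v => if v ∈ K then r v else x v) y =
      bw H s W K (pt τ K true) r y * dw H s W (pt τ K false) (pt τ K true) x y := by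
  unfold bw dw
  rw [← prod_mul_distrib]
  refine prod_congr rfl fun u _ => ?_
  rw [← prod_mul_distrib]
  refine prod_congr rfl fun v _ => ?_
  by_cases hu : u ∈ K <;> by_cases hv : v ∈ K <;> cases hτu : τ u <;> cases hτv : τ v <;>
    simp [pt, hu, hv, hτu, hτv]

omit [DecidableEq V] in
theorem ne_of_pm {s : V → Bool} {m : Bool → U → ℝ} {x : V → U} (h : pm s m x ≠ 0) (v : V) :
    m (s v) (x v) ≠ 0 := fun h0 => h (prod_eq_zero (mem_univ v) h0)

omit [Fintype V] in
theorem thin_mono {H : SimpleGraph V} {R R' Y : Finset V} (hR : R ⊆ R') (h : Thin H R' Y) :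
    Thin H R Y := by
  induction h with
  | empty => exact Thin.empty
  | insert w _ h1 h2 h3 ih =>
    exact Thin.insert w ih (fun h => h1 (hR h)) h2 fun x hx y hy =>
      h3 x (union_subset_union_left hR hx) y (union_subset_union_left hR hy)

end basics

section graph

variable {VG V : Type} [Fintype VG] [DecidableEq VG] [Fintype V] [DecidableEq V]

omit [Fintype VG] [DecidableEq VG] [Fintype V] [DecidableEq V] in
theorem side_ne {G : SimpleGraph VG} {t : VG → Bool} {H : SimpleGraph V} {s : V → Bool}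
    {K : Finset V} {τ : V → Bool} (hs : ∀ u v, H.Adj u v → s u ≠ s v) :
    ∀ a b, (relSub G t H τ K).Adj a b → subSide s t τ K a ≠ subSide s t τ K b := by
  rintro (u | p) (v | q) h
  · exact hs _ _ h
  · exact hs _ _ h
  · exact hs _ _ h
  · exact hs _ _ h.2

omit [Fintype VG] [DecidableEq VG] [Fintype V] in
theorem exists_nb {G : SimpleGraph VG} {t : VG → Bool} {H : SimpleGraph V}
    {K : Finset V} {τ : V → Bool} (hne : Nonempty VG) (ht : ∀ p q, G.Adj p q → t p ≠ t q)
    (hG : ∀ p, ∃ q, G.Adj p q) (hH : ∀ u, ∃ v, H.Adj u v) :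
    ∀ a, ∃ b, (relSub G t H τ K).Adj a b := by
  have key : ∀ (p : VG) (b : Bool), t p ≠ b → ∃ q, G.Adj p q ∧ t q = b := by
    intro p b hb
    obtain ⟨q, hq⟩ := hG p
    refine ⟨q, hq, ?_⟩
    have := ht p q hq
    revert hb this
    cases t p <;> cases t q <;> cases b <;> simp
  rintro (u | p)
  · obtain ⟨v, hv⟩ := hH u
    by_cases hvK : v ∈ K
    · exact ⟨Sum.inl ⟨v, hvK⟩, hv⟩
    · obtain ⟨p⟩ := hne
      by_cases hp : t p = τ v
      · exact ⟨Sum.inr ⟨(p, v), hvK, hp⟩, hv⟩
      · obtain ⟨q, _, hq⟩ := key p (τ v) hp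
        exact ⟨Sum.inr ⟨(q, v), hvK, hq⟩, hv⟩
  · obtain ⟨v, hv⟩ := hH p.1.2
    by_cases hvK : v ∈ K
    · exact ⟨Sum.inl ⟨v, hvK⟩, hv⟩
    · by_cases hp : t p.1.1 = τ v
      · exact ⟨Sum.inr ⟨(p.1.1, v), hvK, hp⟩, Or.inl rfl, hv⟩
      · obtain ⟨q, hpq, hq⟩ := key p.1.1 (τ v) hp
        exact ⟨Sum.inr ⟨(q, v), hvK, hq⟩, Or.inr hpq, hv⟩

/-- the reduction to biregular kernels for graphs without isolated vertices -/
theorem gsid_of {F : SimpleGraph V} {side : V → Bool}
    (hs : ∀ u v, F.Adj u v → side u ≠ side v) (hiso : ∀ u, ∃ v, F.Adj u v)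
    (hB : ∀ (U : Type) [Fintype U] (m : Bool → U → ℝ) (W : U → U → ℝ), Bir m W →
      1 ≤ ∑ z : V → U, (∏ v, m (side v) (z v)) * ∏ e ∈ sideEdges F side, W (z e.1) (z e.2)) :
    GSid F side := by
  refine ⟨hs, H149.ksid_of_bireg ?_ ?_ ?_⟩
  · intro e he
    simp only [sideEdges, mem_filter] at he
    exact he.2.2
  · intro u
    obtain ⟨v, hv⟩ := hiso u
    have h := hs u v hv
    cases hu : side u with
    | false =>
      refine ⟨(u, v), ?_, Or.inl rfl⟩
      simp only [sideEdges, mem_filter, mem_univ, true_and]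
      refine ⟨hv, hu, ?_⟩
      rw [hu] at h
      cases hv' : side v
      · exact absurd hv'.symm h
      · rfl
    | true =>
      refine ⟨(v, u), ?_, Or.inr rfl⟩
      simp only [sideEdges, mem_filter, mem_univ, true_and]
      refine ⟨hv.symm, ?_, hu⟩
      rw [hu] at h
      cases hv' : side v
      · rfl
      · exact absurd hv'.symm h
  · intro U _ m W h1 h2 h3 h4 h5
    exact hB U m W ⟨h1, h2, h3, h4, h5⟩

/-- a graph with the inequality has density at least one in biregular kernels -/
theorem one_le_dens {F : SimpleGraph V} {side : V → Bool} (h : GSid F side) {U : Type} [Fintype U]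
    {m : Bool → U → ℝ} {W : U → U → ℝ} (hb : Bir m W) :
    1 ≤ ∑ z : V → U, (∏ v, m (side v) (z v)) * ∏ e ∈ sideEdges F side, W (z e.1) (z e.2) := by
  have h1 := h.2.2 U m W hb.m0 hb.m1 hb.W0
  have h2 : ∑ x, ∑ y, m false x * m true y * W x y = 1 := by
    rw [← hb.m1 false]
    refine sum_congr rfl fun x _ => ?_
    by_cases hx : m false x = 0
    · simp [hx]
    · have := hb.row x hx
      simp only [mul_assoc]
      rw [← mul_sum, this, mul_one]
  rwa [h2, one_pow] at h1

end graph

/-- case (B) of `MainStmt` -/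
def CaseBStmt : Prop :=
  ∀ (VG V : Type) [Fintype VG] [DecidableEq VG] [Fintype V] [DecidableEq V]
    (G : SimpleGraph VG) (t : VG → Bool) (H : SimpleGraph V) (s : V → Bool) (K : Finset V)
    (τ : V → Bool), Nonempty VG → GSid G t → GSid H s → (∀ p, ∃ q, G.Adj p q) →
    (∀ u, ∃ v, H.Adj u v) →
    Thin H ∅ K → Thin H (K ∪ pt τ K false) (pt τ K true) →
    GSid (relSub G t H τ K) (subSide s t τ K)

/-- the mass of the first part -/
noncomputable def N {V U : Type} [Fintype V] [DecidableEq V] [Fintype U] (m : Bool → U → ℝ)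
    (W : U → U → ℝ) (H : SimpleGraph V) (s : V → Bool) (K : Finset V) (τ : V → Bool)
    (r : V → U) : ℝ :=
  ∑ x : V → U, pm s m x * bw H s W K (pt τ K false) r x

theorem caseB (hT : ThinStmt) (hF : FactStmt) (hS : SubStmt) : CaseBStmt := by
  classical
  intro VG V _ _ _ _ G t H s K τ hne hG hH hGi hHi hK hY
  refine gsid_of (side_ne hH.1) (exists_nb hne hG.1 hGi hHi) ?_
  intro U _ m W hb
  rw [hS VG V U m W G t H s K τ hb.m1 hG.1]
  have hYK : Thin H K (pt τ K true) := thin_mono subset_union_left hY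
  -- the mass of the second part
  have hc : ∀ r : V → U, pm s m r ≠ 0 →
      ∑ y : V → U, pm s m y * bw H s W K (pt τ K true) r y = 1 := fun r hr =>
    hT V U m W H s K _ r hb hH.1 (fun v _ => ne_of_pm hr v) hYK
  have hcd : ∀ r x : V → U, pm s m r ≠ 0 → pm s m x ≠ 0 →
      ∑ y : V → U, pm s m y * bw H s W K (pt τ K true) r y *
        dw H s W (pt τ K false) (pt τ K true) x y = 1 := by
    intro r x hr hx
    rw [← hT V U m W H s (K ∪ pt τ K false) _ (fun v => if v ∈ K then r v else x v) hb hH.1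
      (fun v _ => by
        by_cases hv : v ∈ K
        · simp only [hv, if_true]; exact ne_of_pm hr v
        · simp only [hv, if_false]; exact ne_of_pm hx v) hY]
    refine sum_congr rfl fun y _ => ?_
    rw [bw_union, mul_assoc]
  have hN0 : ∀ r : V → U, 0 ≤ N m W H s K τ r := fun r => sum_nonneg fun x _ =>
    mul_nonneg (pm_nonneg s hb.m0 x) (bw_nonneg H s hb.W0 _ _ _ _)
  -- the vertices of the first part of `G`
  set P : Finset VG := univ.filter fun p => t p = false with hP
  have hPne : P.card ≠ 0 := by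
    obtain ⟨p⟩ := hne
    obtain ⟨q, hq⟩ := hGi p
    have h := hG.1 p q hq
    rw [← pos_iff_ne_zero, card_pos]
    cases hp : t p with
    | false => exact ⟨p, by simp [hP, hp]⟩
    | true =>
      refine ⟨q, ?_⟩
      rw [hp] at h
      cases hq' : t q
      · simp [hP, hq']
      · exact absurd hq'.symm h
  -- the inner sum
  have hin : ∀ r : V → U, pm s m r ≠ 0 → (N m W H s K τ r) ^ P.card ≤
      ∑ Z : VG → V → U, (∏ p, pm s m (Z p) * bw H s W K (pt τ K (t p)) r (Z p)) *
        ∏ e ∈ sideEdges G t, dw H s W (pt τ K false) (pt τ K true) (Z e.1) (Z e.2) := by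
    intro r hr
    have hnn : 0 ≤ ∑ Z : VG → V → U,
        (∏ p, pm s m (Z p) * bw H s W K (pt τ K (t p)) r (Z p)) *
        ∏ e ∈ sideEdges G t, dw H s W (pt τ K false) (pt τ K true) (Z e.1) (Z e.2) :=
      sum_nonneg fun Z _ => mul_nonneg
        (prod_nonneg fun p _ => mul_nonneg (pm_nonneg s hb.m0 _) (bw_nonneg H s hb.W0 _ _ _ _))
        (prod_nonneg fun e _ => dw_nonneg H s hb.W0 _ _ _ _)
    rcases (hN0 r).eq_or_lt with h0 | hpos
    · rw [← h0, zero_pow hPne]
      exact hnn
    · set n := N m W H s K τ r with hn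
      let μ : Bool → (V → U) → ℝ := fun b x =>
        pm s m x * bw H s W K (pt τ K b) r x * (if b = false then n⁻¹ else 1)
      have hμ0 : ∀ b x, 0 ≤ μ b x := fun b x => mul_nonneg
        (mul_nonneg (pm_nonneg s hb.m0 _) (bw_nonneg H s hb.W0 _ _ _ _)) (by
          split_ifs
          · exact (inv_pos.2 hpos).le
          · exact zero_le_one)
      have hμ1 : ∀ b, ∑ x, μ b x = 1 := by
        intro b
        cases b with
        | false =>
          simp only [μ, if_true]
          rw [← sum_mul]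
          change n * n⁻¹ = 1
          exact mul_inv_cancel₀ hpos.ne'
        | true =>
          simp only [μ, Bool.true_eq_false, if_false, mul_one]
          exact hc r hr
      have h1 := hG.2.2 (V → U) μ (fun x y => dw H s W (pt τ K false) (pt τ K true) x y) hμ0 hμ1
        (fun x y => dw_nonneg H s hb.W0 _ _ _ _)
      have h2 : ∑ x, ∑ y, μ false x * μ true y *
          dw H s W (pt τ K false) (pt τ K true) x y = 1 := by
        rw [← hμ1 false]
        refine sum_congr rfl fun x _ => ?_
        by_cases hx : pm s m x = 0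
        · simp [μ, hx]
        · have := hcd r x hr hx
          simp only [mul_assoc (μ false x)]
          rw [← mul_sum]
          have h3 : ∑ y, μ true y * dw H s W (pt τ K false) (pt τ K true) x y = 1 := by
            rw [← this]
            refine sum_congr rfl fun y _ => ?_
            simp [μ]
          rw [h3, mul_one]
      rw [h2, one_pow] at h1
      have h4 : ∀ Z : VG → V → U, ∏ p, μ (t p) (Z p) =
          (∏ p, pm s m (Z p) * bw H s W K (pt τ K (t p)) r (Z p)) * (n⁻¹) ^ P.card := by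
        intro Z
        simp only [μ]
        rw [prod_mul_distrib]
        congr 1
        rw [prod_ite, prod_const_one, mul_one, prod_const]
      have h5 : ∑ Z : VG → V → U, (∏ p, μ (t p) (Z p)) *
          ∏ e ∈ sideEdges G t, dw H s W (pt τ K false) (pt τ K true) (Z e.1) (Z e.2) =
          (∑ Z : VG → V → U, (∏ p, pm s m (Z p) * bw H s W K (pt τ K (t p)) r (Z p)) *
          ∏ e ∈ sideEdges G t, dw H s W (pt τ K false) (pt τ K true) (Z e.1) (Z e.2)) *
            (n⁻¹) ^ P.card := by
        rw [sum_mul]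
        refine sum_congr rfl fun Z _ => ?_
        rw [h4]
        ring
      rw [h5, inv_pow] at h1
      have hpow : 0 < n ^ P.card := pow_pos hpos _
      rw [← div_eq_mul_inv, le_div_iff₀ hpow, one_mul] at h1
      exact h1
  -- the outer sum
  have hUne : Nonempty U := by
    by_contra hU
    rw [not_nonempty_iff] at hU
    have := hb.m1 false
    simp at this
  have ha1 : ∑ r : V → U, pm s m r * aw H s W K r = 1 := by
    obtain ⟨u₀⟩ := hUne
    rw [← hT V U m W H s ∅ K (fun _ => u₀) hb hH.1 (fun v hv => absurd hv (notMem_empty v)) hK]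
    refine sum_congr rfl fun r _ => ?_
    rw [bw_empty]
  have ha0 : ∀ r : V → U, 0 ≤ pm s m r * aw H s W K r := fun r =>
    mul_nonneg (pm_nonneg s hb.m0 r) (aw_nonneg H s hb.W0 K r)
  have haN : 1 ≤ ∑ r : V → U, pm s m r * aw H s W K r * N m W H s K τ r := by
    refine (one_le_dens hH hb).trans_eq ?_
    rw [hF V U m W H s K τ hb.m1]
    refine sum_congr rfl fun r _ => ?_
    by_cases hr : pm s m r = 0
    · simp [hr]
    · congr 1
      unfold N
      refine sum_congr rfl fun x _ => ?_
      by_cases hx : pm s m x = 0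
      · simp [hx]
      · rw [hcd r x hr hx, mul_one]
  calc (1 : ℝ) ≤ (∑ r : V → U, pm s m r * aw H s W K r * N m W H s K τ r) ^ P.card :=
        one_le_pow₀ haN
    _ ≤ ∑ r : V → U, pm s m r * aw H s W K r * (N m W H s K τ r) ^ P.card :=
        Real.pow_arith_mean_le_arith_mean_pow _ _ _ (fun r _ => ha0 r) ha1 (fun r _ => hN0 r) _
    _ ≤ _ := by
        refine sum_le_sum fun r _ => ?_
        by_cases hr : pm s m r = 0
        · simp [hr]
        · exact mul_le_mul_of_nonneg_left (hin r hr) (ha0 r)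

end Vale.Agent.P050.H743.Clo
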