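import Vale.Agent.P050.H743.Clo.Dom

/-!
P050 [CLO]: the copies of `H` in the substitution are dominated.
-/

namespace Vale.Agent.P050.H743.Clo

open Finset Vale.Agent.P050.Lev Vale.Agent.P050.Tmpl Vale.Agent.P050.H177 Vale.Agent.P050.H687

section copy

variable {VG V : Type} [DecidableEq V] {t : VG → Bool} {s τ : V → Bool} {K : Finset V} {p q : VG}

/-- the copy of the vertex `v` along the edge `p q` -/
def cp (K : Finset V) (τ : V → Bool) (tp : t p = false) (tq : t q = true) (v : V) :
    RV t τ K :=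
  if h : v ∈ K then Sum.inl ⟨v, h⟩
  else if h' : τ v = false then Sum.inr ⟨(p, v), h, tp.trans h'.symm⟩
  else Sum.inr ⟨(q, v), h, tq.trans ((Bool.not_eq_false _).mp h').symm⟩

/-- the vertex of `H` below a vertex of the substitution -/
def below (a : RV t τ K) : V :=
  match a with
  | Sum.inl u => u.1
  | Sum.inr x => x.1.2

theorem below_cp (tp : t p = false) (tq : t q = true) (v : V) :
    below (cp K τ tp tq v) = v := by
  unfold cp
  split_ifs <;> rfl

theorem cp_inj (tp : t p = false) (tq : t q = true) : Function.Injective (cp K τ tp tq) := by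
  intro u v h
  have := congrArg below h
  rwa [below_cp, below_cp] at this

theorem side_cp (tp : t p = false) (tq : t q = true) (v : V) :
    subSide s t τ K (cp K τ tp tq v) = s v := by
  unfold cp
  split_ifs <;> rfl

theorem adj_cp {G : SimpleGraph VG} {H : SimpleGraph V} (hpq : G.Adj p q) (tp : t p = false)
    (tq : t q = true) (u v : V) :
    (relSub G t H τ K).Adj (cp K τ tp tq u) (cp K τ tp tq v) ↔ H.Adj u v := by
  unfold cp
  split_ifs <;> simp [relSub, hpq, hpq.symm]

end copy

variable {VG V : Type} [Fintype VG] [DecidableEq VG] [Fintype V] [DecidableEq V]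
  {G : SimpleGraph VG} {t : VG → Bool} {H : SimpleGraph V} {s τ : V → Bool} {K : Finset V}
  {p q : VG}

theorem dn_copy {U : Type} [Fintype U] {m : Bool → U → ℝ} {W : U → U → ℝ}
    (hm : ∀ b, ∑ x, m b x = 1) (hpq : G.Adj p q) (tp : t p = false) (tq : t q = true) :
    dn (ins (relSub G t H τ K) (univ.image (cp K τ tp tq))) (subSide s t τ K) m W =
      dn H s m W := by
  classical
  have hE : sideEdges (ins (relSub G t H τ K) (univ.image (cp K τ tp tq))) (subSide s t τ K) =
      (sideEdges H s).map ⟨fun e => (cp K τ tp tq e.1, cp K τ tp tq e.2), fun e e' h => by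
        simp only [Prod.mk.injEq] at h
        exact Prod.ext (cp_inj tp tq h.1) (cp_inj tp tq h.2)⟩ := by
    ext ⟨a, b⟩
    unfold sideEdges
    simp only [mem_filter, mem_univ, true_and, mem_map, Prod.exists, ins, mem_image]
    constructor
    · rintro ⟨⟨h1, ⟨u, rfl⟩, ⟨v, rfl⟩⟩, h2, h3⟩
      rw [side_cp] at h2 h3
      exact ⟨u, v, ⟨(adj_cp hpq tp tq u v).1 h1, h2, h3⟩, rfl⟩
    · rintro ⟨u, v, ⟨h1, h2, h3⟩, h4⟩
      obtain ⟨rfl, rfl⟩ := Prod.mk.inj h4
      refine ⟨⟨(adj_cp hpq tp tq u v).2 h1, ⟨u, rfl⟩, ⟨v, rfl⟩⟩, ?_, ?_⟩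
      · rw [side_cp]; exact h2
      · rw [side_cp]; exact h3
  unfold dn
  rw [hE]
  simp only [prod_map]
  have h := marg (RV t τ K) V U (cp K τ tp tq) (fun a => m (subSide s t τ K a))
    (fun z => ∏ e ∈ sideEdges H s, W (z e.1) (z e.2)) (cp_inj tp tq) (fun a => hm _)
  simp only [side_cp] at h
  exact h

/-- **Theorem D**, with the copies of `H`: they are dominated, so that Theorem D can be applied
again with a copy of `H` as common part (or as common part and first part). -/
theorem theoremD' (hne : Nonempty VG) (hG : GSid G t) (hH : GSid H s)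
    (hGi : ∀ p, ∃ q, G.Adj p q) (hHi : ∀ u, ∃ v, H.Adj u v) (hY : Thin H K (pt τ K true))
    (h1 : Ge H s K) (h2 : Ge H s (K ∪ pt τ K false)) :
    GSid (relSub G t H τ K) (subSide s t τ K) ∧
      ∀ (p q : VG) (tp : t p = false) (tq : t q = true), G.Adj p q →
        Ge (relSub G t H τ K) (subSide s t τ K) (univ.image (cp K τ tp tq)) := by
  obtain ⟨a, b⟩ := theoremD hne hG hH hGi hHi hY h1 h2
  refine ⟨a, fun p q tp tq hpq U _ m W hb => ?_⟩
  rw [dn_copy hb.m1 hpq]
  exact b U m W hb


end Vale.Agent.P050.H743.Clo
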