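import Vale.Agent.P050.H687.Main

/-!
P050 [CLO]: substitution without thinness of the common part and of the first part.
-/

namespace Vale.Agent.P050.H743.Clo

open Finset Vale.Agent.P050.Lev Vale.Agent.P050.Tmpl Vale.Agent.P050.H177 Vale.Agent.P050.H687

/-- the edges of `H` inside `S` -/
def ins {V : Type} (H : SimpleGraph V) (S : Finset V) : SimpleGraph V where
  Adj u v := H.Adj u v ∧ u ∈ S ∧ v ∈ S
  symm := ⟨fun _ _ h => ⟨h.1.symm, h.2.2, h.2.1⟩⟩
  loopless := ⟨fun _ h => H.loopless.irrefl _ h.1⟩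

/-- the weighted density of the 2-coloured graph `(F, s)` -/
noncomputable def dn {V U : Type} [Fintype V] [DecidableEq V] [Fintype U] (F : SimpleGraph V)
    (s : V → Bool) (m : Bool → U → ℝ) (W : U → U → ℝ) : ℝ :=
  ∑ z : V → U, (∏ v, m (s v) (z v)) * ∏ e ∈ sideEdges F s, W (z e.1) (z e.2)

/-- `Ge H s S`: the density of `H` is at least the one of the graph induced on `S`, for all
weights and all nonnegative kernels with all row and column means `1`. -/
def Ge {V : Type} [Fintype V] [DecidableEq V] (H : SimpleGraph V) (s : V → Bool)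
    (S : Finset V) : Prop :=
  ∀ (U : Type) [Fintype U] (m : Bool → U → ℝ) (W : U → U → ℝ), Bir m W →
    dn (ins H S) s m W ≤ dn H s m W

section ins

variable {V U : Type}

theorem ed_ins (H : SimpleGraph V) (S : Finset V) (s : V → Bool) (W : U → U → ℝ) (u v : V)
    (x y : U) : ed (ins H S) s W u v x y =
      @ite _ (u ∈ S ∧ v ∈ S) (Classical.dec _) (ed H s W u v x y) 1 := by
  classical
  unfold ed ins
  by_cases h : u ∈ S ∧ v ∈ S
  · simp only [h.1, h.2, and_self, and_true, if_true]
  · rw [if_neg, if_neg h]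
    rintro ⟨⟨_, h1⟩, _⟩
    exact h h1

variable [Fintype V] [DecidableEq V]

theorem aw_ins (H : SimpleGraph V) {S K : Finset V} (hK : K ⊆ S) (s : V → Bool)
    (W : U → U → ℝ) (r : V → U) : aw (ins H S) s W K r = aw H s W K r := by
  unfold aw
  refine prod_congr rfl fun u _ => prod_congr rfl fun v _ => ?_
  split_ifs with h
  · rw [ed_ins, if_pos ⟨hK h.1, hK h.2⟩]
  · rfl

theorem bw_ins (H : SimpleGraph V) {S K B : Finset V} (hK : K ⊆ S) (hB : B ⊆ S) (s : V → Bool)
    (W : U → U → ℝ) (r x : V → U) : bw (ins H S) s W K B r x = bw H s W K B r x := by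
  unfold bw
  refine prod_congr rfl fun u _ => prod_congr rfl fun v _ => ?_
  congr 1
  · congr 1
    · split_ifs with h
      · rw [ed_ins, if_pos ⟨hK h.1, hB h.2⟩]
      · rfl
    · split_ifs with h
      · rw [ed_ins, if_pos ⟨hB h.1, hK h.2⟩]
      · rfl
  · split_ifs with h
    · rw [ed_ins, if_pos ⟨hB h.1, hB h.2⟩]
    · rfl

theorem bw_ins_one (H : SimpleGraph V) {S K B : Finset V} (hB : ∀ v ∈ B, v ∉ S) (s : V → Bool)
    (W : U → U → ℝ) (r x : V → U) : bw (ins H S) s W K B r x = 1 := by
  unfold bw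
  refine prod_eq_one fun u _ => prod_eq_one fun v _ => ?_
  have h1 : (if u ∈ K ∧ v ∈ B then ed (ins H S) s W u v (r u) (x v) else 1) = 1 := by
    split_ifs with h
    · rw [ed_ins, if_neg fun h' => hB v h.2 h'.2]
    · rfl
  have h2 : (if u ∈ B ∧ v ∈ K then ed (ins H S) s W u v (x u) (r v) else 1) = 1 := by
    split_ifs with h
    · rw [ed_ins, if_neg fun h' => hB u h.1 h'.1]
    · rfl
  have h3 : (if u ∈ B ∧ v ∈ B then ed (ins H S) s W u v (x u) (x v) else 1) = 1 := by
    split_ifs with h
    · rw [ed_ins, if_neg fun h' => hB u h.1 h'.1]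
    · rfl
  rw [h1, h2, h3]
  norm_num

theorem dw_ins_one (H : SimpleGraph V) {S X Y : Finset V} (hY : ∀ v ∈ Y, v ∉ S) (s : V → Bool)
    (W : U → U → ℝ) (x y : V → U) : dw (ins H S) s W X Y x y = 1 := by
  unfold dw
  refine prod_eq_one fun u _ => prod_eq_one fun v _ => ?_
  have h1 : (if u ∈ X ∧ v ∈ Y then ed (ins H S) s W u v (x u) (y v) else 1) = 1 := by
    split_ifs with h
    · rw [ed_ins, if_neg fun h' => hY v h.2 h'.2]
    · rfl
  have h2 : (if u ∈ Y ∧ v ∈ X then ed (ins H S) s W u v (y u) (x v) else 1) = 1 := by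
    split_ifs with h
    · rw [ed_ins, if_neg fun h' => hY u h.1 h'.1]
    · rfl
  rw [h1, h2]
  norm_num

end ins

section dens

variable {V U : Type} [Fintype V] [DecidableEq V] [Fintype U] {m : Bool → U → ℝ}
  {W : U → U → ℝ} {H : SimpleGraph V} {s : V → Bool}

theorem nonempty_of_bir (hb : Bir m W) : Nonempty U := by
  by_contra hU
  rw [not_nonempty_iff] at hU
  have := hb.m1 false
  simp at this

theorem pm_sum (hb : Bir m W) : ∑ x : V → U, pm s m x = 1 := by
  classical
  obtain ⟨u₀⟩ := nonempty_of_bir hb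
  rw [← H346.thin V U m W ⊥ s ∅ ∅ (fun _ => u₀) hb (fun _ _ h => absurd h (by simp))
    (fun v hv => absurd hv (notMem_empty v)) Thin.empty]
  refine sum_congr rfl fun x _ => ?_
  simp [bw]

/-- the density of the graph induced on `K` -/
theorem dn_ins (hb : Bir m W) (K : Finset V) :
    dn (ins H K) s m W = ∑ r : V → U, pm s m r * aw H s W K r := by
  unfold dn
  rw [H410.fact1 marg V U m W (ins H K) s K (fun _ => false) hb.m1]
  have hK : ∀ b, ∀ v ∈ pt (fun _ : V => false) K b, v ∉ K := by
    intro b v hv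
    simp only [pt, mem_filter] at hv
    exact hv.2.1
  refine sum_congr rfl fun r _ => ?_
  simp only [bw_ins_one H (hK _), dw_ins_one H (hK _), mul_one, pm_sum hb,
    aw_ins H (Subset.refl K)]

/-- the density of the graph induced on `K` and the first part -/
theorem dn_ins' (hb : Bir m W) (K : Finset V) (τ : V → Bool) :
    dn (ins H (K ∪ pt τ K false)) s m W =
      ∑ r : V → U, pm s m r * aw H s W K r * N m W H s K τ r := by
  unfold dn
  rw [H410.fact1 marg V U m W (ins H (K ∪ pt τ K false)) s K τ hb.m1]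
  have hY : ∀ v ∈ pt τ K true, v ∉ K ∪ pt τ K false := by
    intro v hv
    simp only [pt, mem_filter, mem_univ, true_and] at hv
    simp only [pt, mem_union, mem_filter, mem_univ, true_and]
    rintro (h | h)
    · exact hv.1 h
    · rw [hv.2] at h
      exact Bool.noConfusion h.2
  refine sum_congr rfl fun r _ => ?_
  unfold N
  simp only [bw_ins_one H hY, dw_ins_one H hY, mul_one, pm_sum hb,
    aw_ins H (subset_union_left : K ⊆ K ∪ pt τ K false),
    bw_ins H (subset_union_left : K ⊆ K ∪ pt τ K false) subset_union_right]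

end dens

/-- weighted arithmetic-geometric means -/
theorem amgm {e p : ℕ} (hp : 1 ≤ p) (hpe : p ≤ e) {M N : ℝ} (hM : 0 ≤ M) (hN : 0 < N) :
    (e : ℝ) * M - ((e : ℝ) - p) * N - ((p : ℝ) - 1) ≤ M ^ e / N ^ (e - p) := by
  have he : (0 : ℝ) < e := by
    have : 0 < e := by omega
    exact_mod_cast this
  have hp1 : (1 : ℝ) ≤ p := by exact_mod_cast hp
  have hpe' : (p : ℝ) ≤ e := by exact_mod_cast hpe
  have hN' : 0 < N ^ (e - p) := pow_pos hN _
  have hX : 0 ≤ M ^ e / N ^ (e - p) := div_nonneg (pow_nonneg hM _) hN'.le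
  have h := Real.geom_mean_le_arith_mean3_weighted (w₁ := 1 / (e : ℝ)) (w₂ := ((e : ℝ) - p) / e)
    (w₃ := ((p : ℝ) - 1) / e) (p₁ := M ^ e / N ^ (e - p)) (p₂ := N) (p₃ := 1)
    (by positivity) (div_nonneg (by linarith) he.le) (div_nonneg (by linarith) he.le) hX hN.le
    zero_le_one (by field_simp; ring)
  rw [Real.one_rpow, mul_one, mul_one] at h
  have h1 : N ^ (((e : ℝ) - p) / e) = (N ^ (e - p)) ^ (1 / (e : ℝ)) := by
    rw [← Real.rpow_natCast N (e - p), ← Real.rpow_mul hN.le]
    congr 1
    rw [Nat.cast_sub hpe]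
    ring
  rw [h1, ← Real.mul_rpow hX hN'.le, div_mul_cancel₀ _ hN'.ne', one_div,
    Real.pow_rpow_inv_natCast hM (by omega)] at h
  have h2 := mul_le_mul_of_nonneg_left h he.le
  have h3 : (e : ℝ) * ((e : ℝ)⁻¹ * (M ^ e / N ^ (e - p)) + ((e : ℝ) - p) / e * N +
      ((p : ℝ) - 1) / e) = M ^ e / N ^ (e - p) + ((e : ℝ) - p) * N + ((p : ℝ) - 1) := by
    field_simp
  rw [h3] at h2
  linarith

/-- **Theorem D**, the inequality. -/
theorem dn_le {VG V U : Type} [Fintype VG] [DecidableEq VG] [Fintype V] [DecidableEq V]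
    [Fintype U] {G : SimpleGraph VG} {t : VG → Bool} {H : SimpleGraph V} {s : V → Bool}
    {K : Finset V} {τ : V → Bool} {m : Bool → U → ℝ} {W : U → U → ℝ} (hb : Bir m W)
    (hne : Nonempty VG) (hG : GSid G t) (hGi : ∀ p, ∃ q, G.Adj p q)
    (hs : ∀ u v, H.Adj u v → s u ≠ s v) (hY : Thin H K (pt τ K true))
    (h1 : dn (ins H K) s m W ≤ dn H s m W)
    (h2 : dn (ins H (K ∪ pt τ K false)) s m W ≤ dn H s m W) :
    dn H s m W ≤ dn (relSub G t H τ K) (subSide s t τ K) m W := by
  classical
  have hD : dn (relSub G t H τ K) (subSide s t τ K) m W = _ :=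
    H499.fact2 marg VG V U m W G t H s K τ hb.m1 hG.1
  rw [hD]
  have hc : ∀ r : V → U, pm s m r ≠ 0 →
      ∑ y : V → U, pm s m y * bw H s W K (pt τ K true) r y = 1 := fun r hr =>
    H346.thin V U m W H s K _ r hb hs (fun v _ => ne_of_pm hr v) hY
  have hN0 : ∀ r : V → U, 0 ≤ N m W H s K τ r := fun r => sum_nonneg fun x _ =>
    mul_nonneg (pm_nonneg s hb.m0 x) (bw_nonneg H s hb.W0 _ _ _ _)
  let M : (V → U) → ℝ := fun r => ∑ x : V → U, pm s m x *
        bw H s W K (pt τ K false) r x * ∑ y : V → U, pm s m y *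
        bw H s W K (pt τ K true) r y * dw H s W (pt τ K false) (pt τ K true) x y
  have hM0 : ∀ r, 0 ≤ M r := fun r => sum_nonneg fun x _ =>
    mul_nonneg (mul_nonneg (pm_nonneg s hb.m0 x) (bw_nonneg H s hb.W0 _ _ _ _))
      (sum_nonneg fun y _ => mul_nonneg
        (mul_nonneg (pm_nonneg s hb.m0 y) (bw_nonneg H s hb.W0 _ _ _ _))
        (dw_nonneg H s hb.W0 _ _ _ _))
  have ht : dn H s m W = ∑ r : V → U, pm s m r * aw H s W K r * M r :=
    H410.fact1 marg V U m W H s K τ hb.m1
  -- the vertices of the first part of `G`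
  set P : Finset VG := univ.filter fun p => t p = false with hP
  set E := (sideEdges G t).card with hE
  have hPne : 1 ≤ P.card := by
    obtain ⟨p⟩ := hne
    obtain ⟨q, hq⟩ := hGi p
    have h := hG.1 p q hq
    rw [Nat.one_le_iff_ne_zero, ← pos_iff_ne_zero, card_pos]
    cases hp : t p with
    | false => exact ⟨p, by simp [hP, hp]⟩
    | true =>
      refine ⟨q, ?_⟩
      rw [hp] at h
      cases hq' : t q
      · simp [hP, hq']
      · exact absurd hq'.symm h
  have hPE : P.card ≤ E := by
    refine (card_le_card (t := (sideEdges G t).image Prod.fst) ?_).trans card_image_le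
    intro p hp
    simp only [hP, mem_filter, mem_univ, true_and] at hp
    obtain ⟨q, hq⟩ := hGi p
    rw [mem_image]
    refine ⟨(p, q), ?_, rfl⟩
    simp only [sideEdges, mem_filter, mem_univ, true_and]
    refine ⟨hq, hp, ?_⟩
    have h := hG.1 p q hq
    rw [hp] at h
    cases hq' : t q
    · exact absurd hq'.symm h
    · rfl
  have hPE' : (P.card : ℝ) ≤ E := by exact_mod_cast hPE
  have hP1 : (1 : ℝ) ≤ P.card := by exact_mod_cast hPne
  -- the inner sum
  have hin : ∀ r : V → U, pm s m r ≠ 0 →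
      (E : ℝ) * M r - ((E : ℝ) - P.card) * N m W H s K τ r - ((P.card : ℝ) - 1) ≤
      ∑ Z : VG → V → U, (∏ p, pm s m (Z p) * bw H s W K (pt τ K (t p)) r (Z p)) *
        ∏ e ∈ sideEdges G t, dw H s W (pt τ K false) (pt τ K true) (Z e.1) (Z e.2) := by
    intro r hr
    have hnn : 0 ≤ ∑ Z : VG → V → U,
        (∏ p, pm s m (Z p) * bw H s W K (pt τ K (t p)) r (Z p)) *
        ∏ e ∈ sideEdges G t, dw H s W (pt τ K false) (pt τ K true) (Z e.1) (Z e.2) :=
      sum_nonneg fun Z _ => mul_nonneg
        (prod_nonneg fun p _ => mul_nonneg (pm_nonneg s hb.m0 _) (bw_nonneg H s hb.W0 _ _ _ _))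
        (prod_nonneg fun e _ => dw_nonneg H s hb.W0 _ _ _ _)
    rcases (hN0 r).eq_or_lt with h0 | hpos
    · have hz : ∀ x : V → U, pm s m x * bw H s W K (pt τ K false) r x = 0 := by
        have := (sum_eq_zero_iff_of_nonneg (s := univ)
          (f := fun x : V → U => pm s m x * bw H s W K (pt τ K false) r x)
          (fun x _ => mul_nonneg (pm_nonneg s hb.m0 x) (bw_nonneg H s hb.W0 _ _ _ _))).1
          h0.symm
        exact fun x => this x (mem_univ x)
      have hM : M r = 0 := sum_eq_zero fun x _ => by rw [hz x, zero_mul]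
      rw [hM, ← h0]
      linarith
    · refine (amgm hPne hPE (hM0 r) hpos).trans ?_
      set n := N m W H s K τ r with hn
      let μ : Bool → (V → U) → ℝ := fun b x =>
        pm s m x * bw H s W K (pt τ K b) r x * (if b = false then n⁻¹ else 1)
      have hμ0 : ∀ b x, 0 ≤ μ b x := fun b x => mul_nonneg
        (mul_nonneg (pm_nonneg s hb.m0 _) (bw_nonneg H s hb.W0 _ _ _ _)) (by
          split_ifs
          · exact (inv_pos.2 hpos).le
          · exact zero_le_one)
      have hμ1 : ∀ b, ∑ x, μ b x = 1 := by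
        intro b
        cases b with
        | false =>
          simp only [μ, if_true]
          rw [← sum_mul]
          change n * n⁻¹ = 1
          exact mul_inv_cancel₀ hpos.ne'
        | true =>
          simp only [μ, Bool.true_eq_false, if_false, mul_one]
          exact hc r hr
      have h3 := hG.2.2 (V → U) μ (fun x y => dw H s W (pt τ K false) (pt τ K true) x y) hμ0 hμ1
        (fun x y => dw_nonneg H s hb.W0 _ _ _ _)
      have h4 : ∑ x, ∑ y, μ false x * μ true y *
          dw H s W (pt τ K false) (pt τ K true) x y = M r * n⁻¹ := by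
        simp only [M]
        rw [sum_mul]
        refine sum_congr rfl fun x _ => ?_
        simp only [mul_assoc (μ false x)]
        rw [← mul_sum]
        simp only [μ, if_true, Bool.true_eq_false, if_false, mul_one]
        ring
      have h5 : ∀ Z : VG → V → U, ∏ p, μ (t p) (Z p) =
          (∏ p, pm s m (Z p) * bw H s W K (pt τ K (t p)) r (Z p)) * (n⁻¹) ^ P.card := by
        intro Z
        simp only [μ]
        rw [prod_mul_distrib]
        congr 1
        rw [prod_ite, prod_const_one, mul_one, prod_const]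
      have h6 : ∑ Z : VG → V → U, (∏ p, μ (t p) (Z p)) *
          ∏ e ∈ sideEdges G t, dw H s W (pt τ K false) (pt τ K true) (Z e.1) (Z e.2) =
          (∑ Z : VG → V → U, (∏ p, pm s m (Z p) * bw H s W K (pt τ K (t p)) r (Z p)) *
          ∏ e ∈ sideEdges G t, dw H s W (pt τ K false) (pt τ K true) (Z e.1) (Z e.2)) *
            (n⁻¹) ^ P.card := by
        rw [sum_mul]
        refine sum_congr rfl fun Z _ => ?_
        rw [h5]
        ring
      rw [h4, h6, ← hE, inv_pow, mul_pow, inv_pow] at h3
      have hpP : 0 < n ^ P.card := pow_pos hpos _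
      have hpE : 0 < n ^ (E - P.card) := pow_pos hpos _
      have h7 : n ^ E = n ^ (E - P.card) * n ^ P.card := by
        rw [← pow_add, Nat.sub_add_cancel hPE]
      rw [← div_eq_mul_inv, ← div_eq_mul_inv, h7, ← div_div,
        div_le_div_iff_of_pos_right hpP] at h3
      exact h3
  -- the outer sum
  have ha0 : ∀ r : V → U, 0 ≤ pm s m r * aw H s W K r := fun r =>
    mul_nonneg (pm_nonneg s hb.m0 r) (aw_nonneg H s hb.W0 K r)
  calc dn H s m W ≤ (E : ℝ) * dn H s m W -
        ((E : ℝ) - P.card) * dn (ins H (K ∪ pt τ K false)) s m W -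
        ((P.card : ℝ) - 1) * dn (ins H K) s m W := by
        have e1 := mul_le_mul_of_nonneg_left h2 (sub_nonneg.2 hPE')
        have e2 := mul_le_mul_of_nonneg_left h1 (sub_nonneg.2 hP1)
        nlinarith
    _ = ∑ r : V → U, pm s m r * aw H s W K r *
        ((E : ℝ) * M r - ((E : ℝ) - P.card) * N m W H s K τ r - ((P.card : ℝ) - 1)) := by
        rw [dn_ins' hb, dn_ins hb, ht, mul_sum, mul_sum, mul_sum, ← sum_sub_distrib,
          ← sum_sub_distrib]
        refine sum_congr rfl fun r _ => ?_
        ring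
    _ ≤ _ := by
        refine sum_le_sum fun r _ => ?_
        by_cases hr : pm s m r = 0
        · simp [hr]
        · exact mul_le_mul_of_nonneg_left (hin r hr) (ha0 r)

/-- **Theorem D.** -/
theorem theoremD {VG V : Type} [Fintype VG] [DecidableEq VG] [Fintype V] [DecidableEq V]
    {G : SimpleGraph VG} {t : VG → Bool} {H : SimpleGraph V} {s : V → Bool}
    {K : Finset V} {τ : V → Bool} (hne : Nonempty VG) (hG : GSid G t) (hH : GSid H s)
    (hGi : ∀ p, ∃ q, G.Adj p q) (hHi : ∀ u, ∃ v, H.Adj u v) (hY : Thin H K (pt τ K true))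
    (h1 : Ge H s K) (h2 : Ge H s (K ∪ pt τ K false)) :
    GSid (relSub G t H τ K) (subSide s t τ K) ∧
      ∀ (U : Type) [Fintype U] (m : Bool → U → ℝ) (W : U → U → ℝ), Bir m W →
        dn H s m W ≤ dn (relSub G t H τ K) (subSide s t τ K) m W := by
  refine ⟨gsid_of (side_ne hH.1) (exists_nb hne hG.1 hGi hHi) ?_, ?_⟩
  · intro U _ m W hb
    exact (one_le_dens hH hb).trans (dn_le hb hne hG hGi hH.1 hY (h1 U m W hb) (h2 U m W hb))
  · intro U _ m W hb
    exact dn_le hb hne hG hGi hH.1 hY (h1 U m W hb) (h2 U m W hb)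

/-- a thin part is dominated -/
theorem ge_of_thin {V : Type} [Fintype V] [DecidableEq V] {H : SimpleGraph V} {s : V → Bool}
    {S : Finset V} (hH : GSid H s) (hS : Thin H ∅ S) : Ge H s S := by
  intro U _ m W hb
  refine le_trans (le_of_eq ?_) (one_le_dens hH hb)
  rw [dn_ins hb]
  obtain ⟨u₀⟩ := nonempty_of_bir hb
  rw [← H346.thin V U m W H s ∅ S (fun _ => u₀) hb hH.1 (fun v hv => absurd hv (notMem_empty v))
    hS]
  refine sum_congr rfl fun r _ => ?_
  rw [bw_empty]

/-- the rest of a thin part is dominated -/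
theorem ge_of_rest {V : Type} [Fintype V] [DecidableEq V] {H : SimpleGraph V} {s : V → Bool}
    {K : Finset V} {τ : V → Bool} (hs : ∀ u v, H.Adj u v → s u ≠ s v)
    (hY : Thin H (K ∪ pt τ K false) (pt τ K true)) : Ge H s (K ∪ pt τ K false) := by
  intro U _ m W hb
  refine le_of_eq ?_
  have ht : dn H s m W = _ := H410.fact1 marg V U m W H s K τ hb.m1
  rw [dn_ins' hb, ht]
  refine sum_congr rfl fun r _ => ?_
  by_cases hr : pm s m r = 0
  · simp [hr]
  congr 1
  unfold N
  refine sum_congr rfl fun x _ => ?_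
  by_cases hx : pm s m x = 0
  · simp [hx]
  have hcd : ∑ y : V → U, pm s m y * bw H s W K (pt τ K true) r y *
        dw H s W (pt τ K false) (pt τ K true) x y = 1 := by
    rw [← H346.thin V U m W H s (K ∪ pt τ K false) _ (fun v => if v ∈ K then r v else x v) hb hs
      (fun v _ => by
        by_cases hv : v ∈ K
        · simp only [hv, if_true]; exact ne_of_pm hr v
        · simp only [hv, if_false]; exact ne_of_pm hx v) hY]
    refine sum_congr rfl fun y _ => ?_
    rw [bw_union, mul_assoc]
  rw [hcd, mul_one]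

theorem thin_union {V : Type} [DecidableEq V] {H : SimpleGraph V} {K X : Finset V}
    (hK : Thin H ∅ K) (hX : Thin H K X) : Thin H ∅ (K ∪ X) := by
  induction hX with
  | empty => rwa [union_empty]
  | insert w _ h1 h2 h3 ih =>
    rw [union_insert]
    refine Thin.insert w ih (notMem_empty w) (fun h => ?_) fun x hx y hy => ?_
    · rcases mem_union.1 h with h | h
      · exact h1 h
      · exact h2 h
    · rw [empty_union] at hx hy
      exact h3 x hx y hy

/-- Theorem D contains `MainStmt`. -/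
theorem main_of_theoremD : MainStmt := by
  intro VG V _ _ _ _ G t H s K τ hne hG hH hGi hHi hK h
  rcases h with h | h
  · exact (theoremD hne hG hH hGi hHi (h true) (ge_of_thin hH hK)
      (ge_of_thin hH (thin_union hK (h false)))).1
  · exact (theoremD hne hG hH hGi hHi (thin_mono subset_union_left h) (ge_of_thin hH hK)
      (ge_of_rest hH.1 h)).1


end Vale.Agent.P050.H743.Clo
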