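import Vale.Agent.P050.H743.Clo.Copy
import Vale.Agent.P050.H743.Clo.Legs
import Vale.Agent.P050.Lev.Final

/-!
P050 [CLO]: the substitution theorem, with the Sidorenko inequality.
-/

namespace Vale.Agent.P050.H743.Clo

open Finset Vale.Agent.P050 Vale.Agent.P050.Lev Vale.Agent.P050.Tmpl Vale.Agent.P050.H177
  Vale.Agent.P050.H687

/-- Theorem D with the inequality for graphs: clause for the hand-in. -/
theorem substD :
    ∀ (VG V : Type) [Fintype VG] [DecidableEq VG] [Fintype V] [DecidableEq V]
      (G : SimpleGraph VG) (t : VG → Bool) (H : SimpleGraph V) (s : V → Bool) (K : Finset V)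
      (τ : V → Bool), Nonempty VG → GSid G t → GSid H s → (∀ p, ∃ q, G.Adj p q) →
      (∀ u, ∃ v, H.Adj u v) → Thin H K (univ.filter fun v => v ∉ K ∧ τ v = true) →
      Ge H s K → Ge H s (K ∪ univ.filter fun v => v ∉ K ∧ τ v = false) →
      GSid (relSub G t H τ K) (subSide s t τ K) ∧
        (∀ (p q : VG) (tp : t p = false) (tq : t q = true), G.Adj p q →
          Ge (relSub G t H τ K) (subSide s t τ K) (univ.image (cp K τ tp tq))) ∧
        ∀ (U : Type) [Finite U] [Nonempty U] (X : SimpleGraph U),
          edgeDensity X ^ Nat.card (relSub G t H τ K).edgeSet ≤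
            homDensity (relSub G t H τ K) X := by
  intro VG V _ _ _ _ G t H s K τ hne hG hH hGi hHi hY h1 h2
  obtain ⟨a, b⟩ := theoremD' hne hG hH hGi hHi hY h1 h2
  exact ⟨a, b, fun _ _ _ X => sidorenko_of_gsid a X⟩

/-- the sufficient conditions: forests, and complements of thin parts -/
theorem geCond :
    ∀ (V : Type) [Fintype V] [DecidableEq V] (H : SimpleGraph V) (s : V → Bool),
      GSid H s → (∀ S, Thin H ∅ S → Ge H s S) ∧
        ∀ (K : Finset V) (τ : V → Bool),
          Thin H (K ∪ univ.filter fun v => v ∉ K ∧ τ v = false)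
              (univ.filter fun v => v ∉ K ∧ τ v = true) →
            Ge H s (K ∪ univ.filter fun v => v ∉ K ∧ τ v = false) :=
  fun _ _ _ _ _ h => ⟨fun _ hS => ge_of_thin h hS, fun _ _ hY => ge_of_rest h.1 hY⟩

/-- cones with legs of any length, with the inequality for graphs -/
theorem legsD :
    ∀ (VG : Type) [Fintype VG] [DecidableEq VG] (G : SimpleGraph VG) (t : VG → Bool) (k : ℕ),
      Nonempty VG → GSid G t → (∀ p, ∃ q, G.Adj p q) →
      GSid (legG G t k) (legS t k) ∧
        ∀ (U : Type) [Finite U] [Nonempty U] (X : SimpleGraph U),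
          edgeDensity X ^ Nat.card (legG G t k).edgeSet ≤ homDensity (legG G t k) X := by
  intro VG _ _ G t k hne hG hGi
  have h := legs hne hG hGi k
  exact ⟨h, fun _ _ _ X => sidorenko_of_gsid h X⟩


end Vale.Agent.P050.H743.Clo
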